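import Mathlib

/-! Definitions for the statement of the bicentralizer theorem. -/

namespace Vale.Agent.P132

open Filter Topology
open scoped InnerProductSpace

universe u

variable {H : Type u} [NormedAddCommGroup H] [InnerProductSpace ℂ H] [CompleteSpace H]

/-- `φ` restricts to a faithful normal state of `M`: it is ultraweakly continuous on `M`,
positive, unital and faithful. -/
structure IsFaithfulNormalState (M : VonNeumannAlgebra H) (φ : (H →L[ℂ] H) → ℂ) : Prop where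
  normal : ∃ ξ η : ℕ → H, Summable (fun n => ‖ξ n‖ ^ 2) ∧ Summable (fun n => ‖η n‖ ^ 2) ∧
    ∀ x ∈ M, HasSum (fun n => ⟪η n, x (ξ n)⟫_ℂ) (φ x)
  pos : ∀ x ∈ M, 0 ≤ (φ (star x * x)).re ∧ (φ (star x * x)).im = 0
  one : φ 1 = 1
  faithful : ∀ x ∈ M, φ (star x * x) = 0 → x = 0

/-- The centre of `M` consists of the scalars. -/
def IsFactor (M : VonNeumannAlgebra H) : Prop :=
  ∀ z ∈ M, (∀ x ∈ M, z * x = x * z) → ∃ c : ℂ, z = c • (1 : H →L[ℂ] H)

section Modular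

variable {K : Type u} [NormedAddCommGroup K] [InnerProductSpace ℂ K] [CompleteSpace K]

/-- `Λ : M → K` is the GNS map of `ψ`. -/
structure IsGNS (M : VonNeumannAlgebra H) (ψ : (H →L[ℂ] H) → ℂ) (Λ : (H →L[ℂ] H) → K) :
    Prop where
  inner : ∀ x ∈ M, ∀ y ∈ M, ⟪Λ x, Λ y⟫_ℂ = ψ (star x * y)
  dense : Dense (Λ '' (M : Set (H →L[ℂ] H)))

/-- The graph of the Tomita operator `S`, the closure of `Λ x ↦ Λ x*`. -/
def graphS (M : VonNeumannAlgebra H) (Λ : (H →L[ℂ] H) → K) : Set (K × K) :=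
  closure {p | ∃ x ∈ M, p = (Λ x, Λ (star x))}

/-- The graph of the modular operator `Δ = S* S`, where `S*` is the adjoint of the conjugate
linear operator `S`. -/
def graphDelta (M : VonNeumannAlgebra H) (Λ : (H →L[ℂ] H) → K) : Set (K × K) :=
  {p | ∃ η' : K, (p.1, η') ∈ graphS M Λ ∧ ∀ q ∈ graphS M Λ, ⟪q.1, p.2⟫_ℂ = ⟪η', q.2⟫_ℂ}

/-- The spectrum of the operator `T` with graph `G`: the numbers `r` such that `T - r` has no
bounded two-sided inverse. -/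
def graphSpectrum (G : Set (K × K)) : Set ℂ :=
  {r | ¬ ∃ R : K →L[ℂ] K, (∀ ζ, (R ζ, ζ + r • R ζ) ∈ G) ∧ ∀ p ∈ G, R (p.2 - r • p.1) = p.1}

end Modular

/-- Factors such that the modular operator of every faithful normal state has every
nonnegative real number in its spectrum. -/
def IsTypeIII1 (M : VonNeumannAlgebra H) : Prop :=
  IsFactor M ∧ ∀ ψ : (H →L[ℂ] H) → ℂ, IsFaithfulNormalState M ψ →
    ∀ (K : Type u) [NormedAddCommGroup K] [InnerProductSpace ℂ K] [CompleteSpace K]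
      (Λ : (H →L[ℂ] H) → K), IsGNS M ψ Λ →
      ∀ r : ℝ, 0 ≤ r → (r : ℂ) ∈ graphSpectrum (graphDelta M Λ)

/-- The norm of `w n φ - φ w n` in the predual of `M` tends to zero. -/
def AsympCentralizes (M : VonNeumannAlgebra H) (φ : (H →L[ℂ] H) → ℂ) (w : ℕ → H →L[ℂ] H) :
    Prop :=
  ∀ ε : ℝ, 0 < ε → ∀ᶠ n in atTop, ∀ y ∈ M, ‖φ (y * w n) - φ (w n * y)‖ ≤ ε * ‖y‖

/-- The bicentralizer of `φ`. -/
def bicentralizer (M : VonNeumannAlgebra H) (φ : (H →L[ℂ] H) → ℂ) : Set (H →L[ℂ] H) :=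
  {a | a ∈ M ∧ ∀ w : ℕ → H →L[ℂ] H, (∀ n, w n ∈ M) → (∃ C : ℝ, ∀ n, ‖w n‖ ≤ C) →
    AsympCentralizes M φ w → ∀ η : H, Tendsto (fun n => (a * w n - w n * a) η) atTop (𝓝 0)}

end Vale.Agent.P132
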